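import Vale.Agent.P054.T2.H428.SecC
import Vale.Agent.P054.T2.H83.NumC

set_option autoImplicit false
set_option linter.all false

/-!
# P054 / T2, section C: summation over the leaves and over the pairs of germs
-/

namespace Vale.Agent.P054.T2.SecC

open MvPolynomial Finset Module
open Vale.Agent.P054.T2.H686 (mu meet Qf Crd leaf)
open Vale.Agent.P054.T2.H580 (Vw hilbF rkF IsFilt)
open Vale.Agent.P054.T2.H930 (germ mx grad J)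
open Vale.Agent.P054.T2.H441 (hF)

variable {n : ℕ}

/-- both end points are bad -/
def BB {A : Finset (ZZ n × ZZ n)} {W D σ₁ σ₂ v₁ v₂ : ℕ} (S₁ : Side n A W D σ₁ v₂)
    (S₂ : Side n (swp A) W D σ₂ v₁) (e : ZZ n × ZZ n) : Prop :=
  v₁ = 0 ∧ v₂ = 0 ∧ Bad (S₁.Pr e) (pt e.1) ∧ Bad (S₂.Pr e.swap) (pt e.2)

open Classical in
/-- **bad x bad edges**, summed over the primes `Q` of the pair germs -/
theorem card_bb {κ : Type*} (A : Finset (ZZ n × ZZ n)) (Sg : Finset (ZZ n))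
    (hE1 : ∀ e ∈ A, e.1 ∈ Sg) (hE2 : ∀ e ∈ A, e.2 ∈ Sg) (Q : ZZ n × ZZ n → κ)
    (P₂ P₁ : ZZ n × ZZ n → Ideal (MvPolynomial (ZI n) ℝ))
    (hQ2 : ∀ e ∈ A, ∀ e' ∈ A, Q e = Q e' → P₂ e = P₂ e')
    (hQ1 : ∀ e ∈ A, ∀ e' ∈ A, Q e = Q e' → P₁ e = P₁ e')
    (hbad1 : ∀ e ∈ A, Bad (P₂ e) (pt e.1)) (hbad2 : ∀ e ∈ A, Bad (P₁ e) (pt e.2)) {b₁ b₂ : ℕ}
    (hb1 : ∀ e ∈ A, ∀ Y ⊆ Sg, (∀ s ∈ Y, Bad (P₂ e) (pt s)) → Y.card ≤ b₁)
    (hb2 : ∀ e ∈ A, ∀ Y ⊆ Sg, (∀ s ∈ Y, Bad (P₁ e) (pt s)) → Y.card ≤ b₂) :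
    A.card ≤ (A.image Q).card * (b₁ * b₂) := by
  rw [Finset.card_eq_sum_card_image Q A]
  refine (Finset.sum_le_card_nsmul _ _ (b₁ * b₂) ?_).trans (le_of_eq (by rw [smul_eq_mul]))
  intro q hq
  obtain ⟨e₀, he₀, rfl⟩ := Finset.mem_image.1 hq
  set Y₁ := (A.filter fun e => Q e = Q e₀).image Prod.fst with hY₁
  set Y₂ := (A.filter fun e => Q e = Q e₀).image Prod.snd with hY₂
  have h1 : Y₁.card ≤ b₁ := by
    refine hb1 e₀ he₀ _ ?_ ?_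
    · intro s hs
      obtain ⟨e, he, rfl⟩ := Finset.mem_image.1 hs
      exact hE1 e (Finset.mem_filter.1 he).1
    · intro s hs
      obtain ⟨e, he, rfl⟩ := Finset.mem_image.1 hs
      obtain ⟨he1, he2⟩ := Finset.mem_filter.1 he
      rw [hQ2 e₀ he₀ e he1 he2.symm]
      exact hbad1 e he1
  have h2 : Y₂.card ≤ b₂ := by
    refine hb2 e₀ he₀ _ ?_ ?_
    · intro s hs
      obtain ⟨e, he, rfl⟩ := Finset.mem_image.1 hs
      exact hE2 e (Finset.mem_filter.1 he).1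
    · intro s hs
      obtain ⟨e, he, rfl⟩ := Finset.mem_image.1 hs
      obtain ⟨he1, he2⟩ := Finset.mem_filter.1 he
      rw [hQ1 e₀ he₀ e he1 he2.symm]
      exact hbad2 e he1
  have h3 : (A.filter fun e => Q e = Q e₀) ⊆ Y₁ ×ˢ Y₂ := by
    intro e he
    exact Finset.mem_product.2 ⟨Finset.mem_image_of_mem _ he, Finset.mem_image_of_mem _ he⟩
  calc (A.filter fun e => Q e = Q e₀).card ≤ (Y₁ ×ˢ Y₂).card := Finset.card_le_card h3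
    _ = Y₁.card * Y₂.card := Finset.card_product _ _
    _ ≤ b₁ * b₂ := Nat.mul_le_mul h1 h2

open Classical in
/-- **the sum of section C**: every edge is countable from one end or bad x bad -/
theorem card_main {κ : Type*} {A : Finset (ZZ n × ZZ n)} {W D σ₁ σ₂ v₁ v₂ : ℕ}
    (S₁ : Side n A W D σ₁ v₂) (S₂ : Side n (swp A) W D σ₂ v₁) (Sg : Finset (ZZ n))
    (hE1 : ∀ e ∈ A, e.1 ∈ Sg) (hE2 : ∀ e ∈ A, e.2 ∈ Sg) (Q : ZZ n × ZZ n → κ)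
    (hQ2 : ∀ e ∈ A, ∀ e' ∈ A, Q e = Q e' → S₁.Pr e = S₁.Pr e')
    (hQ1 : ∀ e ∈ A, ∀ e' ∈ A, Q e = Q e' → S₂.Pr e.swap = S₂.Pr e'.swap)
    {N G₁ G₂ Y₁ Y₂ X b₁ b₂ : ℕ}
    (hcase : ∀ e ∈ A, S₁.Cnt N G₁ e ∨ S₂.Cnt N G₂ e.swap ∨ BB S₁ S₂ e)
    (hL1 : ∀ s, (A.filter fun e => e.1 = s ∧ S₁.Cnt N G₁ e).card ≤ Y₁)
    (hL2 : ∀ s, ((swp A).filter fun e => e.1 = s ∧ S₂.Cnt N G₂ e).card ≤ Y₂)
    (hX : v₁ = 0 → v₂ = 0 → (A.image Q).card ≤ X)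
    (hb1 : v₁ = 0 → v₂ = 0 → ∀ e ∈ A, ∀ Y ⊆ Sg, (∀ s ∈ Y, Bad (S₁.Pr e) (pt s)) → Y.card ≤ b₁)
    (hb2 : v₁ = 0 → v₂ = 0 → ∀ e ∈ A, ∀ Y ⊆ Sg, (∀ s ∈ Y, Bad (S₂.Pr e.swap) (pt s)) →
      Y.card ≤ b₂) :
    (A.card : ℝ) ≤ Sg.card * (Y₁ : ℝ) + Sg.card * (Y₂ : ℝ) + ((X * (b₁ * b₂) : ℕ) : ℝ) := by
  refine H83.card_split Sg A (A.filter fun e => S₁.Cnt N G₁ e)
    (A.filter fun e => S₂.Cnt N G₂ e.swap) (A.filter fun e => BB S₁ S₂ e) ?_ hE1 hE2 ?_ ?_ ?_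
  · intro e he
    rcases hcase e he with h | h | h
    · exact Or.inl (Finset.mem_filter.2 ⟨he, h⟩)
    · exact Or.inr (Or.inl (Finset.mem_filter.2 ⟨he, h⟩))
    · exact Or.inr (Or.inr (Finset.mem_filter.2 ⟨he, h⟩))
  · intro s _
    refine le_trans ?_ (Nat.cast_le.2 (hL1 s))
    refine Nat.cast_le.2 (Finset.card_le_card ?_)
    intro e he
    simp only [Finset.mem_filter, Finset.mem_inter] at he ⊢
    exact ⟨he.1.1, he.2, he.1.2.2⟩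
  · intro s _
    refine le_trans ?_ (Nat.cast_le.2 (hL2 s))
    refine Nat.cast_le.2 ?_
    refine Finset.card_le_card_of_injOn Prod.swap ?_ Prod.swap_injective.injOn
    intro e he
    simp only [Finset.mem_filter, Finset.mem_inter, Finset.coe_filter, Set.mem_setOf_eq] at he ⊢
    exact ⟨mem_swp.2 (by simpa using he.1.1), he.2, he.1.2.2⟩
  · refine Nat.cast_le.2 ?_
    set Z := A ∩ A.filter fun e => BB S₁ S₂ e with hZ
    rcases Finset.eq_empty_or_nonempty Z with h0 | h0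
    · rw [h0]; simp
    obtain ⟨e₀, he₀⟩ := h0
    have hv : v₁ = 0 ∧ v₂ = 0 := by
      have := (Finset.mem_filter.1 (Finset.mem_inter.1 he₀).2).2
      exact ⟨this.1, this.2.1⟩
    have hmem : ∀ e ∈ Z, e ∈ A ∧ BB S₁ S₂ e := by
      intro e he
      exact ⟨(Finset.mem_inter.1 he).1, (Finset.mem_filter.1 (Finset.mem_inter.1 he).2).2⟩
    refine (card_bb Z Sg (fun e he => hE1 e (hmem e he).1) (fun e he => hE2 e (hmem e he).1) Q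
      S₁.Pr (fun e => S₂.Pr e.swap) (fun e he e' he' h => hQ2 e (hmem e he).1 e' (hmem e' he').1 h)
      (fun e he e' he' h => hQ1 e (hmem e he).1 e' (hmem e' he').1 h)
      (fun e he => (hmem e he).2.2.2.1) (fun e he => (hmem e he).2.2.2.2)
      (fun e he => hb1 hv.1 hv.2 e (hmem e he).1) (fun e he => hb2 hv.1 hv.2 e (hmem e he).1)).trans ?_
    refine Nat.mul_le_mul_right _ (le_trans (Finset.card_le_card ?_) (hX hv.1 hv.2))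
    exact Finset.image_subset_image fun e he => (hmem e he).1

end Vale.Agent.P054.T2.SecC
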