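import Vale.Agent.P054.T2.H428.Flat

set_option autoImplicit false
set_option linter.all false

/-!
# P054 / T2: the seam between sections B and C at one good edge
-/

namespace Vale.Agent.P054.T2.SecC

open MvPolynomial Finset Module
open Vale.Agent.P054.T2.H686 (mu meet Qf Bf Crd leaf)
open Vale.Agent.P054.T2.H580 (Vw hilbF rkF IsFilt)
open Vale.Agent.P054.T2.H930 (germ mx grad J)
open Vale.Agent.P054.T2.H441 (hF)
open Vale.Agent.P054.T2.H192 (Iso)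

variable {n : ℕ}

/-- `ζ` is injective on `U` -/
def ZInj (U : Submodule ℝ (ZZ n)) : Prop := ∀ x ∈ U, x.1 = 0 → x = 0

/-- genericity of the rotation with respect to `U`, (A1) of 588 -/
def GenI (U : Submodule ℝ (ZZ n)) : Prop :=
  finrank ℝ U ≤ n + 1 → (finrank ℝ U < n + 1 ∨ ¬ Iso U) → ZInj U

/-- right type, or wrong type with its data: the kernel line and (if `v = 0`) a cone with apex `s`
over the variety of `Pr` which does not contain the kernel direction -/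
def GenW (v : ℕ) (Pr : Ideal (MvPolynomial (ZI n) ℝ)) (s : ZZ n) (U : Submodule ℝ (ZZ n)) : Prop :=
  Iso U → finrank ℝ U = n + 1 → ZInj U ∨
    ∃ n₀ ∈ U, n₀ ≠ 0 ∧ n₀.1 = 0 ∧ (∀ x ∈ U, x.1 = 0 → ∃ c : ℝ, x = c • n₀) ∧
      (v = 0 → ∃ (D' : ℕ) (G : MvPolynomial (ZI n) ℝ), 0 < D' ∧ G.IsHomogeneous D' ∧
        aeval (fun l => (X l - C (pt s l) : MvPolynomial (ZI n) ℝ)) G ∈ Pr ∧ eval (pt n₀) G ≠ 0)

/-- the one-sided part of the output of section B at the edge `e` -/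
structure EdgeS {A : Finset (ZZ n × ZZ n)} {W D σ v : ℕ} (S : Side n A W D σ v)
    (e : ZZ n × ZZ n) : Prop where
  geni : GenI (S.V e)
  geniw : GenI (S.V e ⊔ Submodule.span ℝ {e.1 - e.2})
  genw : GenW v (S.Pr e) e.1 (S.V e)
  genww : GenW v (S.Pr e) e.1 (S.V e ⊔ Submodule.span ℝ {e.1 - e.2})

/-- stereographic case, one-sided: the affine function `Bf (s' - s) (· - s')` does not vanish at `r`
(`s'` = the point of `r + V` above `ζ(s)`) -/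
def Ste {A : Finset (ZZ n × ZZ n)} {W D σ v : ℕ} (S : Side n A W D σ v) (e : ZZ n × ZZ n) : Prop :=
  e.1 - e.2 ∉ S.V e → finrank ℝ (S.V e) = n + 1 → ZInj (S.V e) →
    ∀ s' : ZZ n, s'.1 = e.1.1 → s' - e.2 ∈ S.V e → Bf (s' - e.1) (e.2 - s') ≠ 0

/-- **the output of section B at one good edge** `e = (s, r)`:
`V₂ = S₁.V e` (directions of `r`), `V₁ = S₂.V e.swap` (directions of `s`), `w = s - r`. -/
structure EdgeB {A : Finset (ZZ n × ZZ n)} {W D σ₁ σ₂ v₁ v₂ : ℕ} (S₁ : Side n A W D σ₁ v₂)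
    (S₂ : Side n (swp A) W D σ₂ v₁) (e : ZZ n × ZZ n) : Prop where
  side₁ : EdgeS S₁ e
  side₂ : EdgeS S₂ e.swap
  hperp : ∀ a ∈ S₂.V e.swap, ∀ b ∈ S₁.V e, Bf a b = 0
  hw₁ : e.1 - e.2 ∈ S₂.V e.swap → S₁.V e ≤ S₂.V e.swap
  hw₂ : e.1 - e.2 ∈ S₁.V e → S₂.V e.swap ≤ S₁.V e
  /-- stereographic case (counted from `s`) -/
  ste : Ste S₁ e
  /-- case N -/
  vertN : e.1 - e.2 ∈ S₁.V e → S₁.V e = S₂.V e.swap → Iso (S₁.V e) →
    (v₁ = 0 ∧ v₂ = 0) ∨ finrank ℝ (S₁.V e) ≤ 2 * σ₁ ∨ finrank ℝ (S₁.V e) ≤ 2 * σ₂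
  /-- case (A'), wrong type, `v₂ ≠ 0` -/
  vertA₁ : e.1 - e.2 ∉ S₁.V e → finrank ℝ (S₁.V e) = n →
    Iso (S₁.V e ⊔ Submodule.span ℝ {e.1 - e.2}) →
    ¬ ZInj (S₁.V e ⊔ Submodule.span ℝ {e.1 - e.2}) → v₂ ≠ 0 →
    finrank ℝ (S₁.V e) ≤ 2 * σ₁ ∨ (e.1 - e.2 ∉ S₂.V e.swap ∧ finrank ℝ (S₂.V e.swap) < n)
  /-- case (B'), wrong type, `v₁ ≠ 0` -/
  vertA₂ : e.1 - e.2 ∉ S₂.V e.swap → finrank ℝ (S₂.V e.swap) = n →
    Iso (S₂.V e.swap ⊔ Submodule.span ℝ {e.1 - e.2}) →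
    ¬ ZInj (S₂.V e.swap ⊔ Submodule.span ℝ {e.1 - e.2}) → v₁ ≠ 0 →
    finrank ℝ (S₂.V e.swap) ≤ 2 * σ₂ ∨ (e.1 - e.2 ∉ S₁.V e ∧ finrank ℝ (S₁.V e) < n)

end Vale.Agent.P054.T2.SecC
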