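import Vale.Agent.P054.T2.H580.FiltDense
import Vale.Agent.P054.T2.H930.Germ3
import Vale.Agent.P054.T2.H686.Pairs
import Vale.Agent.P054.T2.H455.Sep
import Vale.Agent.P054.T2.H192.Tree

set_option autoImplicit false
set_option linter.all false

/-!
# P054 / T2, section C: literal definitions of the interface
-/

namespace Vale.Agent.P054.T2.SecC

open MvPolynomial Finset Module
open Vale.Agent.P054.T2.H686 (mu meet Qf Crd leaf)
open Vale.Agent.P054.T2.H580 (Vw hilbF rkF IsFilt)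
open Vale.Agent.P054.T2.H930 (germ mx grad J)
open Vale.Agent.P054.T2.H441 (hF)

variable {n : ℕ}

/-- index type of the `2 d` coordinates of a point `s = (ζ, θ)` -/
abbrev ZI (n : ℕ) := Fin (n + 1) ⊕ Fin (n + 1)

/-- the points `(ζ, θ)` -/
abbrev ZZ (n : ℕ) := (Fin (n + 1) → ℝ) × (Fin (n + 1) → ℝ)

/-- `(ζ, θ)` as one vector -/
def pt (s : ZZ n) : ZI n → ℝ := Sum.elim s.1 s.2

theorem pt_injective : Function.Injective (pt (n := n)) := by
  intro s r h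
  refine Prod.ext ?_ ?_
  · funext i; exact congrFun h (Sum.inl i)
  · funext i; exact congrFun h (Sum.inr i)

/-- variables of the hat leaf: `(u, r)` -/
abbrev HL (n : ℕ) := Fin n ⊕ ZI n

/-- weights: `u` has weight `1`, `r` has weight `W` -/
def wt {n : ℕ} (W : ℕ) : HL n → ℕ := Sum.elim (fun _ => 1) (fun _ => W)

theorem wt_ne {W : ℕ} (hW : 1 ≤ W) (x : HL n) : wt W x ≠ 0 := by
  rcases x with x | x
  · simp [wt]
  · simp only [wt, Sum.elim_inr]; omega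

/-- the point of the edge `(s, r)` on the hat leaf of `s` -/
noncomputable def hx (s r : ZZ n) : HL n → ℝ := Sum.elim (mu s r) (pt r)

/-- reversed edges -/
def swp (A : Finset (ZZ n × ZZ n)) : Finset (ZZ n × ZZ n) :=
  A.map ⟨Prod.swap, Prod.swap_injective⟩

theorem mem_swp {A : Finset (ZZ n × ZZ n)} {e : ZZ n × ZZ n} : e ∈ swp A ↔ e.swap ∈ A := by
  unfold swp
  simp only [Finset.mem_map, Function.Embedding.coeFn_mk]
  constructor
  · rintro ⟨a, ha, rfl⟩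
    simpa using ha
  · intro h
    exact ⟨e.swap, h, Prod.swap_swap e⟩

/-- incidence polynomials of the hat leaf of `s`:
`ζ_{i+1}(r) - ζ_{i+1}(s) = u_i (ζ_0(r) - ζ_0(s))` -/
noncomputable def incL (s : ZZ n) (i : Fin n) : MvPolynomial (HL n) ℝ :=
  (X (Sum.inr (Sum.inl i.succ)) - C (s.1 i.succ)) -
    X (Sum.inl i) * (X (Sum.inr (Sum.inl 0)) - C (s.1 0))

/-- the quadric `Q(r - s) = 0` -/
noncomputable def incQ (s : ZZ n) : MvPolynomial (HL n) ℝ :=
  ∑ i : Fin (n + 1), (X (Sum.inr (Sum.inl i)) - C (s.1 i)) * (X (Sum.inr (Sum.inr i)) - C (s.2 i))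

/-- the polynomial `λ(r) - λ(r₀)` of a linear functional `λ` -/
noncomputable def linL (l : ZZ n →ₗ[ℝ] ℝ) (r₀ : ZZ n) : MvPolynomial (ZI n) ℝ :=
  (∑ i : Fin (n + 1), C (l (Pi.single i 1, 0)) * X (Sum.inl i)) +
    (∑ i : Fin (n + 1), C (l (0, Pi.single i 1)) * X (Sum.inr i)) - C (l r₀)

theorem lin_apply (l : ZZ n →ₗ[ℝ] ℝ) (s : ZZ n) :
    l s = (∑ i : Fin (n + 1), l (Pi.single i 1, 0) * s.1 i) +
      ∑ i : Fin (n + 1), l (0, Pi.single i 1) * s.2 i := by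
  classical
  have h1 : s = (∑ i : Fin (n + 1), s.1 i • ((Pi.single i 1, 0) : ZZ n)) +
      ∑ i : Fin (n + 1), s.2 i • ((0, Pi.single i 1) : ZZ n) := by
    refine Prod.ext ?_ ?_
    · funext j
      simp [Prod.fst_sum, Finset.sum_apply, Pi.single_apply]
    · funext j
      simp [Prod.snd_sum, Finset.sum_apply, Pi.single_apply]
  conv_lhs => rw [h1]
  rw [map_add, map_sum, map_sum]
  congr 1
  · exact Finset.sum_congr rfl fun i _ => by rw [map_smul, smul_eq_mul, mul_comm]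
  · exact Finset.sum_congr rfl fun i _ => by rw [map_smul, smul_eq_mul, mul_comm]

theorem eval_linL (l : ZZ n →ₗ[ℝ] ℝ) (r₀ s : ZZ n) :
    eval (pt s) (linL l r₀) = l s - l r₀ := by
  rw [lin_apply l s]
  simp [linL, pt, map_sum]

/-- one side of the good edges: `e = (s, r)`, the leaf is the one of `s`, `r` moves.
`σ` is the dimension of the leaf germs, `v` the vertical dimension. -/
structure Side (n : ℕ) (A : Finset (ZZ n × ZZ n)) (W D σ v : ℕ) where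
  hW : 1 ≤ W
  hD : 1 ≤ D
  hσ : σ ≤ n
  hσ1 : 1 ≤ σ
  hv : v ≤ 2 * (n + 1)
  /-- the leaf system of `s` in the variables `u` -/
  f : ZZ n → Fin (n - σ) → MvPolynomial (Fin n) ℝ
  /-- the hat-leaf system in the variables `(u, r)` -/
  F : ZZ n → Fin ((n - σ) + (2 * (n + 1) - v)) → MvPolynomial (HL n) ℝ
  hleft : ∀ s i, F s (Fin.castAdd _ i) = rename Sum.inl (f s i)
  hfdeg : ∀ s i, (f s i).totalDegree ≤ W
  hFdeg : ∀ s j, F s (Fin.natAdd _ j) ∈ Vw ℝ (wt W) (D * W)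
  hne : ∀ e ∈ A, e.1.1 0 ≠ e.2.1 0
  hQ : ∀ e ∈ A, Qf (e.1 - e.2) = 0
  hzero : ∀ e ∈ A, ∀ i, eval (hx e.1 e.2) (F e.1 i) = 0
  hind : ∀ e ∈ A, LinearIndependent ℝ (fun i => grad (hx e.1 e.2) (F e.1 i))
  hindf : ∀ e ∈ A, LinearIndependent ℝ (fun i => grad (mu e.1 e.2) (f e.1 i))
  hindr : ∀ e ∈ A, LinearIndependent ℝ
    (fun (j : Fin (2 * (n + 1) - v)) (z : ZI n) =>
      eval (hx e.1 e.2) (pderiv (Sum.inr z) (F e.1 (Fin.natAdd _ j))))
  hinc : ∀ e ∈ A, ∀ i, incL e.1 i ∈ germ (hx e.1 e.2) (F e.1)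
  hincQ : ∀ e ∈ A, incQ e.1 ∈ germ (hx e.1 e.2) (F e.1)

namespace Side

variable {A : Finset (ZZ n × ZZ n)} {W D σ v : ℕ} (S : Side n A W D σ v)

/-- the prime of the hat-leaf germ at the edge `e` -/
noncomputable def P (e : ZZ n × ZZ n) : Ideal (MvPolynomial (HL n) ℝ) :=
  germ (hx e.1 e.2) (S.F e.1)

/-- the prime of `r` on the hat-leaf germ -/
noncomputable def Pr (e : ZZ n × ZZ n) : Ideal (MvPolynomial (ZI n) ℝ) :=
  (S.P e).comap (rename (R := ℝ) Sum.inr)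

/-- the prime of the leaf germ -/
noncomputable def Pu (e : ZZ n × ZZ n) : Ideal (MvPolynomial (Fin n) ℝ) :=
  germ (mu e.1 e.2) (S.f e.1)

open Classical in
/-- the class of the edge `e` on its leaf -/
noncomputable def cls (e : ZZ n × ZZ n) : Finset (ZZ n × ZZ n) :=
  A.filter fun e' => e'.1 = e.1 ∧ S.P e' = S.P e

theorem mem_cls {e e' : ZZ n × ZZ n} : e' ∈ S.cls e ↔ e' ∈ A ∧ e'.1 = e.1 ∧ S.P e' = S.P e := by
  classical
  unfold cls
  rw [Finset.mem_filter]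

/-- the direction space of the affine hull of the variety of `r` -/
def V (e : ZZ n × ZZ n) : Submodule ℝ (ZZ n) where
  carrier := {x | ∀ l : ZZ n →ₗ[ℝ] ℝ, linL l e.2 ∈ S.Pr e → l x = 0}
  add_mem' := by
    intro x y hx hy l hl
    rw [map_add, hx l hl, hy l hl, add_zero]
  zero_mem' := fun l _ => map_zero l
  smul_mem' := by
    intro c x hx l hl
    rw [map_smul, hx l hl, smul_zero]

theorem mem_V {e : ZZ n × ZZ n} {x : ZZ n} :
    x ∈ S.V e ↔ ∀ l : ZZ n →ₗ[ℝ] ℝ, linL l e.2 ∈ S.Pr e → l x = 0 := Iff.rfl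

theorem eval_eq_zero_of_mem_Pr {e : ZZ n × ZZ n} (he : e ∈ A) {G : MvPolynomial (ZI n) ℝ}
    (h : G ∈ S.Pr e) : eval (pt e.2) G = 0 := by
  have h1 : rename (R := ℝ) Sum.inr G ∈ germ (hx e.1 e.2) (S.F e.1) := h
  have h2 := Vale.Agent.P054.T2.H930.eval_eq_zero_of_mem_germ (S.hzero e he) h1
  rw [eval_rename] at h2
  exact h2

/-- the class of `e` lies in `r + V` -/
theorem sub_mem_V {e e' : ZZ n × ZZ n} (he : e' ∈ S.cls e) : e'.2 - e.2 ∈ S.V e := by
  obtain ⟨h1, h2, h3⟩ := S.mem_cls.1 he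
  intro l hl
  have h4 : linL l e.2 ∈ S.Pr e' := by
    unfold Pr at hl ⊢
    rw [h3]; exact hl
  have h5 := S.eval_eq_zero_of_mem_Pr h1 h4
  rw [eval_linL] at h5
  rw [map_sub]; exact h5

/-- `e` is countable from its first end point -/
def Cnt (N G : ℕ) (e : ZZ n × ZZ n) : Prop :=
  (S.cls e).card ≤ G ∨
    (v = 0 ∧ ∃ a₀ : ℕ, ∀ K : ℕ, ∃ k, K ≤ k ∧ (S.cls e).card * (k + σ).choose σ ≤
      2 * hilbF (Vw ℝ (wt W)) (S.P e) ((k + 1) * (N + 1) + a₀))

theorem cnt_congr {N G : ℕ} {e e' : ZZ n × ZZ n} (h : e'.1 = e.1) (h' : S.P e' = S.P e) :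
    S.Cnt N G e' ↔ S.Cnt N G e := by
  classical
  have h1 : S.cls e' = S.cls e := by
    ext x
    rw [S.mem_cls, S.mem_cls, h, h']
  unfold Cnt
  rw [h1, h']

end Side

/-- a point of large multiplicity on the variety of `P` -/
def Bad {κ : Type*} [Fintype κ] (P : Ideal (MvPolynomial κ ℝ)) (s : κ → ℝ) : Prop :=
  ∃ K : ℕ, ∀ k, K ≤ k → hF P k ≤
    2 * finrank ℝ (MvPolynomial κ ℝ ⧸ (P ⊔ (mx s) ^ (k + 1)))

end Vale.Agent.P054.T2.SecC
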