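import Vale.Agent.P054.T2.H794.AData
import Vale.Agent.P054.T2.H958.GeoWin

set_option autoImplicit false
set_option linter.all false

/-!
# P054 / T2: existence of the window of the hats and of `AData`
-/

namespace Vale.Agent.P054.T2.SecC

open Finset MvPolynomial Module
open Vale.Agent.P054.T2.H307
open Vale.Agent.P054.T2.H580 (Par Vw)
open Vale.Agent.P054.T2.H686 (Qf Crd)
open Vale.Agent.P054.T2.H794 (Cw AData)
open Vale.Agent.P054.T2.H958 (geo geo_mono exists_geo_window)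

variable {n : ℕ}

theorem v_le_NN {b β K₀ : ℕ} {E' : Finset (Ed n ℝ)} {v : FI × ℕ → ℕ}
    (h : IsUnif (cA n ℝ b) (JA K₀) β E' v) (hE : E'.Nonempty) {j : FI × ℕ} (hj : j ∈ JA K₀) :
    v j ≤ NN n := by
  obtain ⟨e, he⟩ := hE
  exact (h.le j hj E' (Finset.Subset.refl _) e he).trans (cA_le b j E' e)

/-- the eight families of the hats at the scale `k` -/
def hats (k : ℕ) : Finset FI :=
  {FI.H1 k, FI.H2 k, FI.V1 k, FI.V2 k, FI.T k, FI.TV k, FI.TS k, FI.TR k}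

theorem card_hats (k : ℕ) : (hats k).card ≤ 8 := by
  unfold hats
  refine (Finset.card_insert_le _ _).trans ?_
  refine Nat.succ_le_succ ((Finset.card_insert_le _ _).trans ?_)
  refine Nat.succ_le_succ ((Finset.card_insert_le _ _).trans ?_)
  refine Nat.succ_le_succ ((Finset.card_insert_le _ _).trans ?_)
  refine Nat.succ_le_succ ((Finset.card_insert_le _ _).trans ?_)
  refine Nat.succ_le_succ ((Finset.card_insert_le _ _).trans ?_)
  refine Nat.succ_le_succ ((Finset.card_insert_le _ _).trans ?_)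
  rw [Finset.card_singleton]

theorem hats_mono {b β K₀ : ℕ} {E' : Finset (Ed n ℝ)} {v : FI × ℕ → ℕ}
    (h : IsUnif (cA n ℝ b) (JA K₀) β E' v) (hE : E'.Nonempty) (hβ : 1 < β) (hb : 1 ≤ b) {k : ℕ}
    (hk : k ≤ K₀) {f : FI} (hf : f ∈ hats k) {i j : ℕ} (hij : i ≤ j) (hj : j ≤ K₀) :
    v (f, i) ≤ v (f, j) := by
  have hV : ∀ {σ : Type} [Fintype σ] (w : σ → ℕ), Monotone (Vw ℝ w) :=
    fun w a b hab => H580.Vw_mono w hab
  unfold hats at hf
  simp only [Finset.mem_insert, Finset.mem_singleton] at hf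
  rcases hf with rfl | rfl | rfl | rfl | rfl | rfl | rfl | rfl
  · exact h.famL_mono hE hβ (fun a b hab => H580.Vw_mono _ hab) hb (isFam_H1 b K₀ k hk) hij hj
  · exact h.famL_mono hE hβ (fun a b hab => H580.Vw_mono _ hab) hb (isFam_H2 b K₀ k hk) hij hj
  · exact h.famL_mono hE hβ (fun a b hab => H580.Vw_mono _ hab) hb (isFam_V1 b K₀ k hk) hij hj
  · exact h.famL_mono hE hβ (fun a b hab => H580.Vw_mono _ hab) hb (isFam_V2 b K₀ k hk) hij hj
  · exact h.famL_mono hE hβ (fun a b hab => H580.Vw_mono _ hab) hb (isFam_T b K₀ k hk) hij hj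
  · exact h.famL_mono hE hβ (fun a b hab => H580.Vw_mono _ hab) hb (isFam_TV b K₀ k hk) hij hj
  · exact h.famL_mono hE hβ (fun a b hab => H580.Vw_mono _ hab) hb (isFam_TS b K₀ k hk) hij hj
  · exact h.famL_mono hE hβ (fun a b hab => H580.Vw_mono _ hab) hb (isFam_TR b K₀ k hk) hij hj

theorem hats_mem_famA {K₀ k : ℕ} (hk : k ≤ K₀) {f : FI} (hf : f ∈ hats k) : f ∈ famA K₀ := by
  unfold hats at hf
  simp only [Finset.mem_insert, Finset.mem_singleton] at hf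
  exact mem_famA.2 (Or.inr (Or.inr (Or.inr ⟨k, hk, hf⟩)))

theorem window_aux (J : Finset FI) (v : FI × ℕ → ℕ) (N C H M : ℕ)
    (hmono : ∀ f ∈ J, ∀ i < H, v (f, i) ≤ v (f, i + 1)) (hN : ∀ f ∈ J, v (f, H) ≤ N)
    (hM : J.card * N ≤ M) (hH : geo C C (M + 1) ≤ H) :
    ∃ i₀, i₀ ≤ geo C C M ∧ i₀ + (C * i₀ + C) ≤ H ∧
      ∀ f ∈ J, Cw v f i₀ (i₀ + (C * i₀ + C)) := by
  have h5 : geo C C (J.card * N + 1) ≤ geo C C (M + 1) := geo_mono C C (Nat.succ_le_succ hM)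
  obtain ⟨i₀, h1, h2, h3⟩ := exists_geo_window J (fun f i => v (f, i)) N C C H hmono hN
    (h5.trans hH)
  exact ⟨i₀, h1.trans (geo_mono C C hM), h2, fun f hf i hi1 hi2 => h3 f hf i hi1 hi2⟩

/-- **window of the hats** -/
theorem exists_hat_window {b β K₀ : ℕ} {E' : Finset (Ed n ℝ)} {v : FI × ℕ → ℕ}
    (h : IsUnif (cA n ℝ b) (JA K₀) β E' v) (hE : E'.Nonempty) (hβ : 1 < β) (hb : 1 ≤ b)
    {k₀ H C M : ℕ} (hM : 8 * NN n ≤ M) (hk : k₀ ≤ K₀) (hHK : H ≤ K₀)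
    (hH : geo C C (M + 1) ≤ H) :
    ∃ i₀, i₀ ≤ geo C C M ∧ i₀ + (C * i₀ + C) ≤ H ∧
      ∀ f ∈ hats k₀, Cw v f i₀ (i₀ + (C * i₀ + C)) := by
  have h1 : ∀ f ∈ hats k₀, ∀ i < H, v (f, i) ≤ v (f, i + 1) := fun f hf i hi =>
    hats_mono h hE hβ hb hk hf (Nat.le_succ i) ((Nat.succ_le_of_lt hi).trans hHK)
  have h2 : ∀ f ∈ hats k₀, v (f, H) ≤ NN n := fun f hf => by
    have h3 : f ∈ famA K₀ := hats_mem_famA hk hf
    have h4 : (f, H) ∈ JA K₀ := by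
      rw [mem_JA]
      exact ⟨h3, hHK⟩
    exact v_le_NN h hE h4
  have h3 : (hats k₀).card * NN n ≤ M := (Nat.mul_le_mul_right _ (card_hats k₀)).trans hM
  exact window_aux (hats k₀) v (NN n) C H M h1 h2 h3 hH

/-- **existence of `AData`** -/
theorem exists_AData {k β C₁ L K₀ q C k₀ H Wg M : ℕ} {E' : Finset (Ed n ℝ)} {v : FI × ℕ → ℕ}
    (par : Par (NN n) k β C₁ L K₀ q (JA K₀).card)
    (unif : IsUnif (cA n ℝ (β ^ L)) (JA K₀) β E' v) (ne : E'.Nonempty)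
    (adj : ∀ e ∈ E', e.1.1 0 ≠ e.2.1 0 ∧ Qf (e.1 - e.2) = 0)
    (hk : k₀ + Wg ≤ K₀)
    (winF : Cw v FI.F k₀ (k₀ + Wg)) (winL1 : Cw v FI.L1 k₀ (k₀ + Wg))
    (winL2 : Cw v FI.L2 k₀ (k₀ + Wg))
    (tight : (2 * n + 1) - v (FI.F, k₀) = (n - v (FI.L1, k₀)) + (n - v (FI.L2, k₀)))
    (pos1 : v (FI.L1, k₀) < n) (pos2 : v (FI.L2, k₀) < n) (hM : 8 * NN n ≤ M)
    (hH : geo C C (M + 1) ≤ H) (hW : C * H + C ≤ Wg) (hHW : H ≤ Wg) :
    ∃ i₀ i₁, i₀ ≤ geo C C M ∧ i₁ ≤ H ∧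
      AData n k β C₁ L K₀ q C k₀ i₀ i₁ Wg E' v := by
  obtain ⟨i₀, h1, h2, h3⟩ := exists_hat_window (C := C) (k₀ := k₀) (H := H) unif ne
    par.beta_gt_one par.b_gt_one.le hM ((Nat.le_add_right _ _).trans hk)
    (hHW.trans ((Nat.le_add_left _ _).trans hk)) hH
  have hm : ∀ f : FI, f ∈ hats k₀ → Cw v f i₀ (i₀ + (C * i₀ + C)) := h3
  refine ⟨i₀, i₀ + (C * i₀ + C), h1, h2, ⟨par, unif, ne, adj, hk, winF, winL1, winL2, tight, pos1,
    pos2, hm _ (by simp [hats]), hm _ (by simp [hats]), hm _ (by simp [hats]),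
    hm _ (by simp [hats]), hm _ (by simp [hats]), hm _ (by simp [hats]), hm _ (by simp [hats]),
    hm _ (by simp [hats]), Nat.le_add_left _ _, ?_⟩⟩
  exact (Nat.add_le_add_right (Nat.mul_le_mul_left _ h2) _).trans hW

end Vale.Agent.P054.T2.SecC
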