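import Vale.Agent.P054.T2.H428.MainC
import Vale.Agent.P054.T2.H431.Bad
import Vale.Agent.P054.T2.H455.C3
import Vale.Agent.P054.T2.H269.SideC
import Vale.Agent.P054.T2.H84.SecCEnd

set_option autoImplicit false
set_option linter.all false

/-!
# P054 / T2, section C: number of bad points of one prime of `r`
-/

namespace Vale.Agent.P054.T2.SecC

open MvPolynomial Finset Module
open Vale.Agent.P054.T2.H686 (mu meet Qf Bf Crd leaf E zt dists)
open Vale.Agent.P054.T2.H580 (Vw hilbF rkF IsFilt)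
open Vale.Agent.P054.T2.H930 (germ mx grad J)
open Vale.Agent.P054.T2.H441 (hF rkY)
open Vale.Agent.P054.T2.H84 (Sg mem_Sg)

variable {n : ℕ}

/-- polynomials of degree `≤ N` in `r` have level `N W` -/
theorem rename_inr_mem {W N : ℕ} {f : MvPolynomial (ZI n) ℝ} (hf : f.totalDegree ≤ N) :
    rename Sum.inr f ∈ Vw ℝ (wt (n := n) W) (N * W) := by
  classical
  rw [H580.mem_Vw]
  intro m hm
  rw [support_rename_of_injective Sum.inr_injective, Finset.mem_image] at hm
  obtain ⟨m', hm', rfl⟩ := hm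
  have h1 := le_totalDegree hm'
  have h2 : Finsupp.weight (wt (n := n) W) (Finsupp.mapDomain Sum.inr m') =
      (m'.sum fun _ e => e) * W := by
    rw [Finsupp.weight_apply, Finsupp.sum_mapDomain_index (by simp)
      (by intros; simp [add_smul, add_mul])]
    unfold Finsupp.sum
    rw [Finset.sum_mul]
    exact Finset.sum_congr rfl fun i _ => by simp [wt]
  rw [h2]
  exact Nat.mul_le_mul_right _ (h1.trans hf)

theorem hF_Pr_le {A : Finset (ZZ n × ZZ n)} {W D σ v : ℕ} (S : Side n A W D σ v)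
    (e : ZZ n × ZZ n) (T : ℕ) : hF (S.Pr e) T ≤ hilbF (Vw ℝ (wt W)) (S.P e) (T * W) := by
  have hV := H269.isFilt_wt (n := n) S.hW
  have hfin : FiniteDimensional ℝ (Vw ℝ (wt (n := n) W) (T * W)) := hV.fin _
  have h1 : (S.Pr e) ≤ (S.P e).comap (rename (R := ℝ) Sum.inr : MvPolynomial (ZI n) ℝ →ₐ[ℝ] _) :=
    le_rfl
  let ψ : (MvPolynomial (ZI n) ℝ ⧸ S.Pr e) →ₐ[ℝ] (MvPolynomial (HL n) ℝ ⧸ S.P e) :=
    Ideal.quotientMapₐ (S.P e) (rename (R := ℝ) Sum.inr) h1
  have hψ : Function.Injective ψ := Ideal.quotientMap_injective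
  have h2 : ((restrictTotalDegree (ZI n) ℝ T).map
      (Ideal.Quotient.mkₐ ℝ (S.Pr e)).toLinearMap).map ψ.toLinearMap ≤
      (Vw ℝ (wt (n := n) W) (T * W)).map (Ideal.Quotient.mkₐ ℝ (S.P e)).toLinearMap := by
    rintro _ ⟨_, ⟨F, hF1, rfl⟩, rfl⟩
    exact ⟨rename Sum.inr F, rename_inr_mem ((mem_restrictTotalDegree _ _ _).1 hF1), rfl⟩
  have h3 := Submodule.finrank_mono h2
  have h4 : finrank ℝ (((restrictTotalDegree (ZI n) ℝ T).map
      (Ideal.Quotient.mkₐ ℝ (S.Pr e)).toLinearMap).map ψ.toLinearMap) =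
      finrank ℝ ((restrictTotalDegree (ZI n) ℝ T).map
      (Ideal.Quotient.mkₐ ℝ (S.Pr e)).toLinearMap) :=
    (Submodule.equivMapOfInjective ψ.toLinearMap hψ _).symm.finrank_eq
  rw [h4] at h3
  exact h3

theorem Pr_ne_top {A : Finset (ZZ n × ZZ n)} {W D σ v : ℕ} (S : Side n A W D σ v)
    {e : ZZ n × ZZ n} (he : e ∈ A) : S.Pr e ≠ ⊤ := by
  intro h
  have h1 : (1 : MvPolynomial (ZI n) ℝ) ∈ S.Pr e := by rw [h]; trivial
  have h2 := S.eval_eq_zero_of_mem_Pr he h1
  simp at h2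

/-- **number of bad points** -/
theorem side_bad {A : Finset (ZZ n × ZZ n)} {W D σ : ℕ} (S : Side n A W D σ 0)
    {e : ZZ n × ZZ n} (he : e ∈ A) (P : Finset (E n)) (B : E n ≃ₗᵢ[ℝ] E n) {t : ℕ}
    (ht : (dists P).card ≤ t) (Y : Finset (ZZ n)) (hY : Y ⊆ Sg P B)
    (hbad : ∀ s ∈ Y, Bad (S.Pr e) (pt s)) : Y.card ≤ 2 * (4 * t + 1) ^ σ := by
  classical
  have hsep : H455.Sep (pt (n := n)) (4 * t) Y := by
    intro z hz
    obtain ⟨s, hs, rfl⟩ := mem_Sg.1 (hY hz)
    obtain ⟨f, h1, h2, h3⟩ := H686.exists_sep P B s hs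
    refine ⟨f, h1.trans (Nat.mul_le_mul_left _ ht), h2, ?_⟩
    intro z' hz' hne
    obtain ⟨s', hs', rfl⟩ := mem_Sg.1 (hY hz')
    exact h3 s' hs' (fun h => hne (by rw [h]))
  have h1 : rkY (Y.image pt) (4 * t) = (Y.image pt).card := by
    have := hsep.rkY_eq
    rw [this, Finset.card_image_of_injective _ pt_injective]
  have h2 : (Y.image pt).card ≤ 2 * (4 * t + 1) ^ σ := by
    refine H431.card_bad_le (S.Pr e)
      (Δ := H269.Cn n * D ^ (2 * (n + 1)) * W ^ (n - σ) * W ^ σ) (σ := σ) ?_ ?_ _ h1 ?_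
    · intro T
      refine (hF_Pr_le S e T).trans ?_
      have h3 := H269.side_up S e.1 {e} (by simpa using he) (by simp) (T * W)
      simp only [Finset.mem_singleton, iInf_iInf_eq_left, pow_zero, one_mul, Nat.add_zero] at h3
      refine h3.trans (le_of_eq ?_)
      have : T * W + W = (T + 1) * W := by ring
      rw [this, mul_pow]
      ring
    · exact fun T => H431.one_le_hF _ (Pr_ne_top S he) T
    · intro p hp
      obtain ⟨s, hs, rfl⟩ := Finset.mem_image.1 hp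
      exact hbad s hs
  rwa [Finset.card_image_of_injective _ pt_injective] at h2

end Vale.Agent.P054.T2.SecC
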