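import Vale.Agent.P054.T2.H428.SecC
import Vale.Agent.P054.T2.H686.Par

set_option autoImplicit false
set_option linter.all false

/-!
# P054 / T2, section C: the affine hull of the variety of `r`
-/

namespace Vale.Agent.P054.T2.SecC

open MvPolynomial Finset Module
open Vale.Agent.P054.T2.H686 (mu meet Qf Bf Crd leaf)
open Vale.Agent.P054.T2.H580 (Vw hilbF rkF IsFilt)
open Vale.Agent.P054.T2.H930 (germ mx grad J)
open Vale.Agent.P054.T2.H441 (hF)

variable {n : ℕ}

theorem linL_add (l l' : ZZ n →ₗ[ℝ] ℝ) (r₀ : ZZ n) : linL (l + l') r₀ = linL l r₀ + linL l' r₀ := by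
  unfold linL
  simp only [LinearMap.add_apply, map_add, add_mul, Finset.sum_add_distrib]
  ring

theorem linL_smul (c : ℝ) (l : ZZ n →ₗ[ℝ] ℝ) (r₀ : ZZ n) : linL (c • l) r₀ = C c * linL l r₀ := by
  unfold linL
  simp only [LinearMap.smul_apply, smul_eq_mul, map_mul, mul_sub, mul_add, Finset.mul_sum,
    mul_assoc]

theorem linL_zero (r₀ : ZZ n) : linL (0 : ZZ n →ₗ[ℝ] ℝ) r₀ = 0 := by
  unfold linL
  simp

/-- the linear coordinate functions -/
def crd (z : ZI n) : ZZ n →ₗ[ℝ] ℝ where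
  toFun x := pt x z
  map_add' x y := by cases z <;> simp [pt]
  map_smul' c x := by cases z <;> simp [pt]

@[simp] theorem crd_apply (z : ZI n) (x : ZZ n) : crd z x = pt x z := rfl

theorem linL_crd (z : ZI n) (r₀ : ZZ n) : linL (crd z) r₀ = X z - C (pt r₀ z) := by
  apply MvPolynomial.funext
  intro x
  obtain ⟨s, rfl⟩ : ∃ s : ZZ n, x = pt s := ⟨(fun i => x (Sum.inl i), fun i => x (Sum.inr i)), by
    funext z; cases z <;> rfl⟩
  rw [eval_linL]
  simp

theorem exists_pt (x : ZI n → ℝ) : ∃ s : ZZ n, x = pt s :=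
  ⟨(fun i => x (Sum.inl i), fun i => x (Sum.inr i)), by funext z; cases z <;> rfl⟩

namespace Side

variable {A : Finset (ZZ n × ZZ n)} {W D σ v : ℕ} (S : Side n A W D σ v)

/-- the linear functionals which are constant on the variety of `r` -/
def Lam (e : ZZ n × ZZ n) : Submodule ℝ (Dual ℝ (ZZ n)) where
  carrier := {l | linL l e.2 ∈ S.Pr e}
  add_mem' := by
    intro l l' h h'
    rw [Set.mem_setOf_eq, linL_add]
    exact Ideal.add_mem _ h h'
  zero_mem' := by
    rw [Set.mem_setOf_eq, linL_zero]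
    exact Ideal.zero_mem _
  smul_mem' := by
    intro c l h
    rw [Set.mem_setOf_eq, linL_smul]
    exact Ideal.mul_mem_left _ _ h

theorem V_eq (e : ZZ n × ZZ n) : S.V e = (S.Lam e).dualCoannihilator := by
  ext x
  rw [mem_V, Submodule.mem_dualCoannihilator]
  rfl

/-- **[FLAT0]** -/
theorem linL_mem {e : ZZ n × ZZ n} {l : ZZ n →ₗ[ℝ] ℝ} (h : ∀ x ∈ S.V e, l x = 0) :
    linL l e.2 ∈ S.Pr e := by
  have h1 : l ∈ (S.V e).dualAnnihilator := (Submodule.mem_dualAnnihilator l).2 h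
  rw [V_eq, Subspace.dualCoannihilator_dualAnnihilator_eq] at h1
  exact h1

/-- **[FLAT]** a polynomial which vanishes on the flat `r + V` lies in the prime of `r` -/
theorem mem_Pr_of_flat {e : ZZ n × ZZ n} {F : MvPolynomial (ZI n) ℝ}
    (h : ∀ b ∈ S.V e, eval (pt (e.2 + b)) F = 0) : F ∈ S.Pr e := by
  classical
  obtain ⟨π, hπ⟩ := (S.V e).subtype.exists_leftInverse_of_injective (S.V e).ker_subtype
  -- `ℓ z x = z`-coordinate of `x - π x`
  let ℓ : ZI n → (ZZ n →ₗ[ℝ] ℝ) := fun z => (crd z).comp (LinearMap.id - (S.V e).subtype.comp π)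
  have hℓ : ∀ z, linL (ℓ z) e.2 ∈ S.Pr e := by
    intro z
    refine S.linL_mem fun x hx => ?_
    have h1 : π x = ⟨x, hx⟩ := congrArg (fun f : S.V e →ₗ[ℝ] S.V e => f ⟨x, hx⟩) hπ
    show crd z (x - (S.V e).subtype (π x)) = 0
    rw [h1, Submodule.subtype_apply, sub_self, map_zero]
  let ρ : MvPolynomial (ZI n) ℝ →ₐ[ℝ] MvPolynomial (ZI n) ℝ :=
    aeval fun z => X z - linL (ℓ z) e.2
  have hρ : ∀ G, G - ρ G ∈ S.Pr e := by
    intro G
    have h1 : (Ideal.Quotient.mkₐ ℝ (S.Pr e)).comp ρ = Ideal.Quotient.mkₐ ℝ (S.Pr e) := by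
      apply MvPolynomial.algHom_ext
      intro z
      simp only [AlgHom.comp_apply, ρ, aeval_X, map_sub]
      rw [sub_eq_self]
      exact Ideal.Quotient.eq_zero_iff_mem.2 (hℓ z)
    have h2 := congrArg (fun f : MvPolynomial (ZI n) ℝ →ₐ[ℝ] _ => f G) h1
    have h3 : Ideal.Quotient.mk (S.Pr e) (G - ρ G) = 0 := by
      rw [map_sub, sub_eq_zero]
      exact h2.symm
    exact Ideal.Quotient.eq_zero_iff_mem.1 h3
  have h0 : ρ F = 0 := by
    apply MvPolynomial.funext
    intro x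
    obtain ⟨s, rfl⟩ := exists_pt x
    have h1 : eval (pt s) (ρ F) = eval (pt (e.2 + (S.V e).subtype (π (s - e.2)))) F := by
      have h2 : (eval (pt s)).comp (ρ : MvPolynomial (ZI n) ℝ →+* MvPolynomial (ZI n) ℝ) =
          eval (pt (e.2 + (S.V e).subtype (π (s - e.2)))) := by
        apply MvPolynomial.ringHom_ext
        · intro c
          simp [ρ]
        · intro z
          simp only [RingHom.comp_apply, RingHom.coe_coe, ρ, aeval_X, map_sub, eval_X, eval_linL]
          have h4 : ℓ z s - ℓ z e.2 = crd z (s - e.2 - (S.V e).subtype (π (s - e.2))) := by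
            rw [← map_sub]; rfl
          rw [h4]
          have h5 : crd z s = pt s z := rfl
          rw [← h5, ← crd_apply z (e.2 + _)]
          simp only [map_sub, map_add]
          ring
      have := congrArg (fun f : MvPolynomial (ZI n) ℝ →+* ℝ => f F) h2
      simpa using this
    rw [h1, map_zero]
    exact h _ (π (s - e.2)).2
  have := hρ F
  rwa [h0, sub_zero] at this

/-- the quadric of `s`, as a polynomial of `r` -/
noncomputable def qq (s : ZZ n) : MvPolynomial (ZI n) ℝ :=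
  ∑ i : Fin (n + 1), (X (Sum.inl i) - C (s.1 i)) * (X (Sum.inr i) - C (s.2 i))

theorem eval_qq (s r : ZZ n) : eval (pt r) (qq s) = Qf (r - s) := by
  unfold qq Qf
  rw [map_sum]
  refine Finset.sum_congr rfl fun i _ => ?_
  simp [pt]

theorem qq_mem {e : ZZ n × ZZ n} (he : e ∈ A) : qq e.1 ∈ S.Pr e := by
  show rename (R := ℝ) Sum.inr (qq e.1) ∈ germ (hx e.1 e.2) (S.F e.1)
  have h1 : rename (R := ℝ) Sum.inr (qq e.1) = incQ e.1 := by
    unfold qq incQ
    rw [map_sum]
    refine Finset.sum_congr rfl fun i _ => ?_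
    simp
  rw [h1]
  exact S.hincQ e he

/-- the linear functional `Bf a` -/
noncomputable def BfL (a : ZZ n) : ZZ n →ₗ[ℝ] ℝ where
  toFun b := Bf a b
  map_add' x y := by
    simp only [Bf, Prod.fst_add, Prod.snd_add, Pi.add_apply, ← Finset.sum_add_distrib]
    exact Finset.sum_congr rfl fun i _ => by ring
  map_smul' c x := H686.Bf_smul_right c a x

/-- **[HISO]** -/
theorem iso_perp {e : ZZ n × ZZ n} (he : e ∈ A) (hiso : ∀ b ∈ S.V e, Qf b = 0) :
    ∀ b ∈ S.V e, Bf (e.1 - e.2) b = 0 := by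
  have h1 : linL (BfL (e.2 - e.1)) e.2 ∈ S.Pr e := by
    have h2 : qq e.1 - linL (BfL (e.2 - e.1)) e.2 ∈ S.Pr e := by
      refine S.mem_Pr_of_flat fun b hb => ?_
      rw [map_sub, eval_qq, eval_linL, map_add]
      have h3 : e.2 + b - e.1 = (e.2 - e.1) + b := by abel
      have h4 : Qf (e.2 - e.1) = 0 := by
        have h5 := S.hQ e he
        rw [← h5]
        unfold Qf
        refine Finset.sum_congr rfl fun i _ => ?_
        simp only [Prod.fst_sub, Prod.snd_sub, Pi.sub_apply]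
        ring
      rw [h3, H686.Qf_add, h4, hiso b hb]
      show 0 + Bf (e.2 - e.1) b + 0 - (BfL (e.2 - e.1) e.2 + Bf (e.2 - e.1) b -
        BfL (e.2 - e.1) e.2) = 0
      ring
    have h5 := Ideal.sub_mem _ (S.qq_mem he) h2
    rwa [sub_sub_cancel] at h5
  intro b hb
  have h6 : BfL (e.2 - e.1) b = 0 := S.mem_V.1 hb _ h1
  have h7 : Bf (e.1 - e.2) b = - Bf (e.2 - e.1) b := by
    rw [← neg_sub e.2 e.1]
    unfold Bf
    rw [← Finset.sum_neg_distrib]
    refine Finset.sum_congr rfl fun i _ => ?_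
    simp only [Prod.fst_neg, Prod.snd_neg, Pi.neg_apply]
    ring
  rw [h7]
  show - BfL (e.2 - e.1) b = 0
  rw [h6, neg_zero]

end Side

end Vale.Agent.P054.T2.SecC
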