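import Vale.Agent.P054.T2.H686.Glue
import Vale.Agent.P054.T2.H84.HatWin
import Vale.Agent.P054.T2.H794.SecBDef

set_option autoImplicit false
set_option linter.all false

/-!
# P054 / T2: `MainAB n` from 794's `SecB n`
-/

namespace Vale.Agent.P054.T2.SecC

open Finset MvPolynomial Module
open Vale.Agent.P054.T2.H307 (FI JA NN cA IsUnif)
open Vale.Agent.P054.T2.H580 (Par)
open Vale.Agent.P054.T2.H686 (ABMain ABDeg MainAB Ez Sz Gm Qf Crd dists IsoB exists_par0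
  exists_unif_window Ez_ne Ez_Qf par_mono)
open Vale.Agent.P054.T2.H84 (WG deg_or_AData)


variable {n : ℕ}

theorem ABMain_mono {P : Finset (H686.E n)} {B : H686.E n ≃ₗᵢ[ℝ] H686.E n}
    {β b a₀ a₁ a₁' a₃ Cst t Wmax Wmax' : ℕ} {G : ℕ → ℕ} (hb : 1 ≤ b) (h1 : a₁ ≤ a₁')
    (hW : Wmax ≤ Wmax') (h : ABMain n P B β b a₀ a₁ a₃ Cst t Wmax G) :
    ABMain n P B β b a₀ a₁' a₃ Cst t Wmax' G := by
  obtain ⟨A, W, D, σ₁, σ₂, v₁, v₂, S₁, S₂, κ, Q, hA, hA0, hWW, hD, hQ2, hQ1, hcase, hX⟩ := h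
  exact ⟨A, W, D, σ₁, σ₂, v₁, v₂, S₁, S₂, κ, Q, hA, hA0, hWW.trans hW,
    hD.trans (Nat.pow_le_pow_right hb h1), hQ2, hQ1, hcase, hX⟩

/-- **`MainAB n` from section B** -/
theorem mainAB_of_secB (hn : 1 ≤ n) (h : H794.SecB n) : MainAB n := by
  classical
  obtain ⟨C₀, q₀, h⟩ := h
  obtain ⟨C, hC⟩ : ∃ C, C = max C₀ 1 := ⟨_, rfl⟩
  have hC0 : C₀ ≤ C := by rw [hC]; exact le_max_left _ _
  have hC1 : 1 ≤ C := by rw [hC]; exact le_max_right _ _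
  refine ⟨2, WG n C + 1, 4 * (n + 1), H819.Cx n, fun m _ K₁ => ?_⟩
  obtain ⟨K, hK⟩ : ∃ K, K = K₁ + (m + 1) * (((2 * n + 1) * (2 * n + 1) + 3) +
    (3 * (2 * n + 1) + 1) * (WG n C + 1)) := ⟨_, rfl⟩
  obtain ⟨L, hL⟩ : ∃ L, L = NN n * (JA K).card + 1 := ⟨_, rfl⟩
  have hL1 : 1 ≤ L := by rw [hL]; exact Nat.le_add_left _ _
  obtain ⟨C₁, β₂, hpar⟩ := exists_par0 (NN n) L K (q₀ + 3) (JA K).card hL1
  obtain ⟨β₁, hB1⟩ := h C hC0 (q₀ + 3) (Nat.le_add_right _ _) L K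
  refine ⟨K, L, max (max β₁ β₂) (max (32 * ((2 * (n + 1)) ^ n) ^ 2) ((n + 1) ^ n)), ?_, hL1, ?_⟩
  · rw [hK]; exact Nat.le_add_right _ _
  intro β hβ t P B G hG ht hPt hreach h4 hne hiso
  have hβ1 : β₁ ≤ β := ((le_max_left _ _).trans (le_max_left _ _)).trans hβ
  have hβ2 : β₂ ≤ β := ((le_max_right _ _).trans (le_max_left _ _)).trans hβ
  have hβ3 : 32 * ((2 * (n + 1)) ^ n) ^ 2 ≤ β :=
    ((le_max_left _ _).trans (le_max_right _ _)).trans hβ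
  have hβ4 : (n + 1) ^ n ≤ β := ((le_max_right _ _).trans (le_max_right _ _)).trans hβ
  obtain ⟨k, hP⟩ := hpar β hβ2
  obtain ⟨E', v, k₀, hE'E, hE, hEc, hU, hk₀, hw⟩ := exists_unif_window (Nat.le_add_left 3 q₀) hK hL
    hP hβ3 hn hG hreach h4 hne
  have hb1 : 1 ≤ β ^ L := Nat.le_of_lt hP.b_gt_one
  have hβb : β ≤ β ^ L := Nat.le_self_pow (by omega) β
  have hkW : k₀ + WG n C ≤ K := by omega
  have hkK : k₀ ≤ K := (Nat.le_add_right _ _).trans hkW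
  have hWK : (β ^ L) ^ k₀ ≤ (β ^ L) ^ K := Nat.pow_le_pow_right hb1 hkK
  rcases deg_or_AData (C := C) (a₀ := 2) (a₁ := WG n C + 1) (Wmax := (β ^ L) ^ K) (P := P) (B := B)
    hP hU hE hE'E
    (hEc.trans (Nat.mul_le_mul_right _ (Nat.le_self_pow (by omega) _)))
    (fun e he => ⟨Ez_ne hG hn (hE'E he), Ez_Qf (hE'E he)⟩) hkW hw hWK
    ((hβ4.trans hβb).trans (Nat.le_self_pow (by omega) _)) with h | ⟨i₀, i₁, hA⟩
  · exact Or.inl h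
  · right
    have hi : i₀ ≤ WG n C + 1 :=
      ((hA.i₀_le hC1).trans (hA.i₁_le hC1)).trans (Nat.le_succ _)
    exact ABMain_mono hb1 hi hWK
      (hB1 β hβ1 k C₁ k₀ i₀ i₁ (WG n C) E' v hA t P B G hG hPt hiso hE'E hEc)

end Vale.Agent.P054.T2.SecC
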