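import Vale.Agent.P054.T2.H269.GermHilb
import Vale.Agent.P054.T2.H455.C3
import Vale.Agent.P054.T2.H981.SRank
import Vale.Agent.P054.T2.H686.Setup

set_option autoImplicit false
set_option linter.all false

/-!
# P054 / T2: the degenerate branch: leaf germs of dimension `0`
-/

namespace Vale.Agent.P054.T2.SecC

open MvPolynomial Finset Module
open Vale.Agent.P054.T2.H686 (mu meet Qf Bf Crd leaf E zt dists Gm Ez mem_Ez Sz card_Ez_leaf_le)
open Vale.Agent.P054.T2.H580 (Vw hilbF rkF IsFilt)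
open Vale.Agent.P054.T2.H930 (germ mx grad J)
open Vale.Agent.P054.T2.H441 (hF rkY)

/-- finitely many points are separated in some degree -/
theorem exists_sep_deg {K σ : Type*} [Field K] (U : Finset (σ → K)) :
    ∃ D, H455.Sep (fun p : σ → K => p) D U := by
  classical
  have h1 : ∀ p q : σ → K, ∃ l : MvPolynomial σ K, l.totalDegree ≤ 1 ∧
      (p ≠ q → eval p l ≠ 0) ∧ eval q l = 0 := by
    intro p q
    by_cases h : p = q
    · exact ⟨0, by simp, fun hh => absurd h hh, by simp⟩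
    · obtain ⟨i, hi⟩ := Function.ne_iff.1 h
      refine ⟨X i - C (q i), ?_, fun _ => ?_, by simp⟩
      · refine (totalDegree_sub_C_le _ _).trans ?_
        exact (totalDegree_X i).le
      · simpa [sub_eq_zero] using hi
  choose l hl1 hl2 hl3 using h1
  refine ⟨U.card, fun p hp => ⟨∏ q ∈ U.erase p, l p q, ?_, ?_, ?_⟩⟩
  · refine (totalDegree_finset_prod _ _).trans ?_
    refine (Finset.sum_le_card_nsmul _ _ 1 fun q _ => hl1 p q).trans ?_
    rw [smul_eq_mul, mul_one]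
    exact Finset.card_le_card (Finset.erase_subset _ _)
  · rw [map_prod]
    refine Finset.prod_ne_zero_iff.2 fun q hq => ?_
    exact hl2 p q (Finset.ne_of_mem_erase hq).symm
  · intro q hq hne
    rw [map_prod]
    exact Finset.prod_eq_zero (Finset.mem_erase.2 ⟨hne, hq⟩) (hl3 p q)

/-- **[SIG0] (i)** number of nondegenerate common zeros of `n` polynomials of degree `≤ W` -/
theorem card_zeros_le {K : Type*} [Field K] {n W : ℕ} (hW : 1 ≤ W)
    (f : Fin n → MvPolynomial (Fin n) K) (hdeg : ∀ i, (f i).totalDegree ≤ W)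
    (U : Finset (Fin n → K)) (h0 : ∀ p ∈ U, ∀ i, eval p (f i) = 0)
    (hind : ∀ p ∈ U, LinearIndependent K (fun i => grad p (f i))) :
    U.card ≤ (n + 1) ^ n * W ^ n := by
  classical
  obtain ⟨D, hD⟩ := exists_sep_deg U
  have h1 : rkY U D = U.card := by
    have := hD.rkY_eq
    simpa using this
  set I : Ideal (MvPolynomial (Fin n) K) := ⨅ p ∈ U, germ p f with hI
  have h2 : rkY U D ≤ hF I D := by
    refine H441.rkY_le_hF U I ?_ D
    intro F hF p hp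
    have h3 : F ∈ germ p f := by
      have := (Ideal.mem_iInf.1 hF) p
      exact (Ideal.mem_iInf.1 this) hp
    exact H930.eval_eq_zero_of_mem_germ (h0 p hp) h3
  have h3 := H269.hilbF_germs_le (H580.isFilt_total (σ := Fin n) (k := K)) U (fun p => p) f h0 hind
    (fun _ => W) (fun _ => hW) (fun i => by rw [mem_restrictTotalDegree]; exact hdeg i) D D
  have h4 : (∏ _j : Fin n, W) = W ^ n := by simp
  rw [h4] at h3
  have h5 : finrank K (restrictTotalDegree (Fin n) K (D + n * D)) ≤ ((n + 1) * (D + 1)) ^ n := by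
    refine (H981.finrank_restrictTotalDegree_le (Fin n) K _).trans ?_
    rw [Fintype.card_fin]
    refine Nat.pow_le_pow_left ?_ n
    nlinarith
  have h6 : (D + 1) ^ n * hF I D ≤ (D + 1) ^ n * ((n + 1) ^ n * W ^ n) := by
    calc (D + 1) ^ n * hF I D ≤ W ^ n * finrank K (restrictTotalDegree (Fin n) K (D + n * D)) := h3
      _ ≤ W ^ n * ((n + 1) * (D + 1)) ^ n := Nat.mul_le_mul_left _ h5
      _ = _ := by rw [mul_pow]; ring
  have h7 : hF I D ≤ (n + 1) ^ n * W ^ n := Nat.le_of_mul_le_mul_left h6 (by positivity)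
  omega

variable {n : ℕ}

/-- **[SIG0] (ii)** edges at `s` when the leaf germs have dimension `0` -/
theorem sig0_leaf {P : Finset (E n)} {B : E n ≃ₗᵢ[ℝ] E n} (hB : Gm P B) (hn : 2 ≤ n) {C W : ℕ}
    (hW : 1 ≤ W) (A : Finset (ZZ n × ZZ n)) (hA : A ⊆ Ez P B C)
    (f : ZZ n → Fin n → MvPolynomial (Fin n) ℝ) (hdeg : ∀ s i, (f s i).totalDegree ≤ W)
    (h0 : ∀ e ∈ A, ∀ i, eval (mu e.1 e.2) (f e.1 i) = 0)
    (hind : ∀ e ∈ A, LinearIndependent ℝ (fun i => grad (mu e.1 e.2) (f e.1 i))) (s : ZZ n)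
    [DecidablePred fun e : ZZ n × ZZ n => e.1 = s] :
    (A.filter fun e => e.1 = s).card ≤ C * ((n + 1) ^ n * W ^ n) := by
  classical
  set R : Finset (ZZ n) := (A.filter fun e => e.1 = s).image Prod.snd with hR
  have hRA : ∀ r ∈ R, (s, r) ∈ A := by
    intro r hr
    obtain ⟨e, he, rfl⟩ := Finset.mem_image.1 hr
    obtain ⟨h1, rfl⟩ := Finset.mem_filter.1 he
    exact h1
  have h1 : (A.filter fun e => e.1 = s).card = R.card := by
    rw [hR, Finset.card_image_of_injOn]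
    intro a ha b hb hab
    have h2 := (Finset.mem_filter.1 ha).2
    have h3 := (Finset.mem_filter.1 hb).2
    exact Prod.ext (h2.trans h3.symm) hab
  rw [h1]
  have h2 := card_Ez_leaf_le hB hn (C := C) s R (fun r hr => hA (hRA r hr)) (R.image fun r => mu s r)
    (fun r hr => Finset.mem_image_of_mem _ hr)
  refine h2.trans (Nat.mul_le_mul_left _ ?_)
  refine card_zeros_le hW (f s) (hdeg s) _ ?_ ?_
  · intro p hp i
    obtain ⟨r, hr, rfl⟩ := Finset.mem_image.1 hp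
    have h3 := h0 (s, r) (hRA r hr) i
    dsimp only at h3
    exact h3
  · intro p hp
    obtain ⟨r, hr, rfl⟩ := Finset.mem_image.1 hp
    have h3 := hind (s, r) (hRA r hr)
    dsimp only at h3
    exact h3

/-- all edges -/
theorem sig0_card {P : Finset (E n)} {B : E n ≃ₗᵢ[ℝ] E n} (hB : Gm P B) (hn : 2 ≤ n) {C W : ℕ}
    (hW : 1 ≤ W) (A : Finset (ZZ n × ZZ n)) (hA : A ⊆ Ez P B C)
    (f : ZZ n → Fin n → MvPolynomial (Fin n) ℝ) (hdeg : ∀ s i, (f s i).totalDegree ≤ W)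
    (h0 : ∀ e ∈ A, ∀ i, eval (mu e.1 e.2) (f e.1 i) = 0)
    (hind : ∀ e ∈ A, LinearIndependent ℝ (fun i => grad (mu e.1 e.2) (f e.1 i))) :
    A.card ≤ P.card ^ 2 * (C * ((n + 1) ^ n * W ^ n)) := by
  classical
  have h1 : A.card = ∑ s ∈ Sz P B, (A.filter fun e => e.1 = s).card :=
    Finset.card_eq_sum_card_fiberwise fun e he => H686.Ez_fst (hA he)
  rw [h1]
  refine (Finset.sum_le_card_nsmul _ _ _ fun s _ => sig0_leaf hB hn hW A hA f hdeg h0 hind s).trans ?_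
  rw [smul_eq_mul, H686.card_Sz]

theorem sig0_nat {p t E₀ Ac b a₀ C n W x : ℕ} (hE₀ : p ^ 4 ≤ 4 * (t * E₀)) (hE' : E₀ ≤ b ^ a₀ * Ac)
    (hA : Ac ≤ p ^ 2 * (C * ((n + 1) ^ n * W ^ n))) (h4 : 4 ≤ b) (hC : C ≤ b)
    (hn : (n + 1) ^ n ≤ b) : p ^ 4 ≤ t * b ^ (a₀ + 3) * (p ^ 2 * (W ^ (n - 0) * (t ^ 0 + x))) := by
  calc p ^ 4 ≤ 4 * (t * E₀) := hE₀
    _ ≤ 4 * (t * (b ^ a₀ * Ac)) := by gcongr
    _ ≤ 4 * (t * (b ^ a₀ * (p ^ 2 * (C * ((n + 1) ^ n * W ^ n))))) := by gcongr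
    _ ≤ b * (t * (b ^ a₀ * (p ^ 2 * (b * (b * W ^ n))))) := by gcongr
    _ = t * b ^ (a₀ + 3) * (p ^ 2 * (W ^ n * 1)) := by ring
    _ ≤ _ := by
      rw [Nat.sub_zero, pow_zero]
      gcongr
      exact Nat.le_add_right 1 x

/-- **[SIG0]**, first end: the inequality of `MainIneq` with `σ₁ = 0` -/
theorem sig0_ineq {P : Finset (E n)} {B : E n ≃ₗᵢ[ℝ] E n} (hB : Gm P B) (hn : 2 ≤ n) {C W : ℕ}
    (hW : 1 ≤ W) (A : Finset (ZZ n × ZZ n)) (hA : A ⊆ Ez P B C)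
    (f : ZZ n → Fin n → MvPolynomial (Fin n) ℝ) (hdeg : ∀ s i, (f s i).totalDegree ≤ W)
    (h0 : ∀ e ∈ A, ∀ i, eval (mu e.1 e.2) (f e.1 i) = 0)
    (hind : ∀ e ∈ A, LinearIndependent ℝ (fun i => grad (mu e.1 e.2) (f e.1 i)))
    {t E₀ b a₀ x : ℕ} (hE₀ : P.card ^ 4 ≤ 4 * (t * E₀)) (hE' : E₀ ≤ b ^ a₀ * A.card)
    (h4 : 4 ≤ b) (hC : C ≤ b) (hnb : (n + 1) ^ n ≤ b) :
    P.card ^ 4 ≤ t * b ^ (a₀ + 3) * (P.card ^ 2 * (W ^ (n - 0) * (t ^ 0 + x))) :=
  sig0_nat hE₀ hE' (sig0_card hB hn hW A hA f hdeg h0 hind) h4 hC hnb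

/-- **[SIG0]**, second end (`f r` = system on the leaf of `r`) -/
theorem sig0_ineq_swp {P : Finset (E n)} {B : E n ≃ₗᵢ[ℝ] E n} (hB : Gm P B) (hn : 2 ≤ n) {C W : ℕ}
    (hW : 1 ≤ W) (A : Finset (ZZ n × ZZ n)) (hA : A ⊆ Ez P B C)
    (f : ZZ n → Fin n → MvPolynomial (Fin n) ℝ) (hdeg : ∀ s i, (f s i).totalDegree ≤ W)
    (h0 : ∀ e ∈ A, ∀ i, eval (mu e.1 e.2) (f e.2 i) = 0)
    (hind : ∀ e ∈ A, LinearIndependent ℝ (fun i => grad (mu e.1 e.2) (f e.2 i)))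
    {t E₀ b a₀ x : ℕ} (hE₀ : P.card ^ 4 ≤ 4 * (t * E₀)) (hE' : E₀ ≤ b ^ a₀ * A.card)
    (h4 : 4 ≤ b) (hC : C ≤ b) (hnb : (n + 1) ^ n ≤ b) :
    P.card ^ 4 ≤ t * b ^ (a₀ + 3) * (P.card ^ 2 * (W ^ (n - 0) * (t ^ 0 + x))) := by
  have hcard : (swp A).card = A.card := Finset.card_map _
  refine sig0_ineq hB hn hW (swp A) (fun e he => ?_) f hdeg (fun e he i => ?_) (fun e he => ?_)
    hE₀ (by rw [hcard]; exact hE') h4 hC hnb
  · have h1 := H686.Ez_swap (hA (mem_swp.1 he))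
    rwa [Prod.swap_swap] at h1
  · have h1 := h0 _ (mem_swp.1 he) i
    rw [H686.mu_comm] at h1
    exact h1
  · have h1 := hind _ (mem_swp.1 he)
    rw [H686.mu_comm] at h1
    exact h1

end Vale.Agent.P054.T2.SecC
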